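import Mathlib
import Vale.Agent.Lib.PCP.MGG

/-!
Walks on an expander that stay in a small set (abstract form), and the
Margulis-Gabber-Galil graph with its eight neighbour maps.
-/

open Finset

namespace Vale.Agent.P313.AC.H904

section Abs

variable {V : Type*} [Fintype V] [DecidableEq V] {d : ℕ}

/-- The form of the graph with neighbour maps `nb`. -/
def Q (nb : Fin d → Equiv.Perm V) (f g : V → ℝ) : ℝ := ∑ v, f v * ∑ c, g (nb c v)

theorem Q_add_left (nb : Fin d → Equiv.Perm V) (f f' g : V → ℝ) :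
    Q nb (f + f') g = Q nb f g + Q nb f' g := by
  simp only [Q, Pi.add_apply, add_mul, Finset.sum_add_distrib]

theorem Q_add_right (nb : Fin d → Equiv.Perm V) (f g g' : V → ℝ) :
    Q nb f (g + g') = Q nb f g + Q nb f g' := by
  simp only [Q, Pi.add_apply, mul_add, Finset.sum_add_distrib]

theorem Q_smul_left (nb : Fin d → Equiv.Perm V) (a : ℝ) (f g : V → ℝ) :
    Q nb (a • f) g = a * Q nb f g := by
  simp only [Q, Pi.smul_apply, smul_eq_mul, Finset.mul_sum, mul_assoc]

theorem Q_smul_right (nb : Fin d → Equiv.Perm V) (a : ℝ) (f g : V → ℝ) :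
    Q nb f (a • g) = a * Q nb f g := by
  simp only [Q, Pi.smul_apply, smul_eq_mul, Finset.mul_sum]
  refine Finset.sum_congr rfl fun v _ => Finset.sum_congr rfl fun c _ => ?_
  ring

theorem Q_const_left (nb : Fin d → Equiv.Perm V) (a : ℝ) (g : V → ℝ) :
    Q nb (fun _ => a) g = a * d * ∑ v, g v := by
  unfold Q
  rw [← Finset.mul_sum, Finset.sum_comm]
  have h : ∀ c ∈ (univ : Finset (Fin d)), ∑ v, g (nb c v) = ∑ v, g v :=
    fun c _ => Equiv.sum_comp (nb c) g
  rw [Finset.sum_congr rfl h, Finset.sum_const, Finset.card_univ, Fintype.card_fin, nsmul_eq_mul]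
  ring

theorem Q_const_right (nb : Fin d → Equiv.Perm V) (a : ℝ) (f : V → ℝ) :
    Q nb f (fun _ => a) = a * d * ∑ v, f v := by
  unfold Q
  simp only [Finset.sum_const, Finset.card_univ, Fintype.card_fin, nsmul_eq_mul]
  rw [← Finset.sum_mul]
  ring

/-- Spectral gap `lam` (all eigenvalues except the first one are at most `lam * d`). -/
structure Gap (nb : Fin d → Equiv.Perm V) (lam : ℝ) : Prop where
  nonneg : 0 ≤ lam
  le_one : lam ≤ 1
  sym : ∀ f g : V → ℝ, Q nb f g = Q nb g f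
  gap : ∀ f : V → ℝ, ∑ v, f v = 0 → |Q nb f f| ≤ lam * d * ∑ v, f v ^ 2

variable {nb : Fin d → Equiv.Perm V} {lam : ℝ}

/-- Functions supported in a small set. -/
theorem Gap.supp [Nonempty V] (h : Gap nb lam) (B : Finset V) (f : V → ℝ)
    (hf : ∀ v, v ∉ B → f v = 0) {rho : ℝ}
    (hr : lam + (1 - lam) * (#B / Fintype.card V) ≤ rho) :
    |Q nb f f| ≤ rho * d * ∑ v, f v ^ 2 := by
  have hV : (0 : ℝ) < Fintype.card V := by exact_mod_cast Fintype.card_pos
  set N : ℝ := (Fintype.card V : ℝ) with hN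
  set m : ℝ := (∑ v, f v) / N with hm
  have hmN : m * N = ∑ v, f v := by rw [hm]; field_simp
  set g : V → ℝ := fun v => f v - m with hg
  have hfg : f = g + fun _ => m := by ext v; simp [hg]
  have hg0 : ∑ v, g v = 0 := by
    simp only [hg, Finset.sum_sub_distrib, Finset.sum_const, Finset.card_univ, nsmul_eq_mul]
    rw [← hmN]; ring
  have h1 : Q nb f f = Q nb g g + m ^ 2 * d * N := by
    conv_lhs => rw [hfg]
    rw [Q_add_left, Q_add_right, Q_add_right, Q_const_left, Q_const_right, hg0, Q_const_left,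
      Finset.sum_const, Finset.card_univ, nsmul_eq_mul]
    ring
  have h2 : ∑ v, g v ^ 2 = ∑ v, f v ^ 2 - m ^ 2 * N := by
    have : ∀ v, g v ^ 2 = f v ^ 2 - 2 * m * f v + m ^ 2 := by intro v; simp only [hg]; ring
    simp only [this, Finset.sum_add_distrib, Finset.sum_sub_distrib, ← Finset.mul_sum,
      Finset.sum_const, Finset.card_univ, nsmul_eq_mul]
    rw [← hmN]; ring
  have h3 := h.gap g hg0
  rw [h2] at h3
  have hd : (0 : ℝ) ≤ d := Nat.cast_nonneg d
  -- Cauchy-Schwarz on the support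
  have h4 : (∑ v, f v) ^ 2 ≤ #B * ∑ v, f v ^ 2 := by
    have e1 : ∑ v, f v = ∑ v ∈ B, f v := by
      symm
      exact Finset.sum_subset (Finset.subset_univ B) fun v _ hv => hf v hv
    have e2 : ∑ v, f v ^ 2 = ∑ v ∈ B, f v ^ 2 := by
      symm
      exact Finset.sum_subset (Finset.subset_univ B) fun v _ hv => by rw [hf v hv]; simp
    rw [e1, e2]
    have := Finset.sum_mul_sq_le_sq_mul_sq B (fun _ => (1 : ℝ)) f
    simpa using this
  have h5 : m ^ 2 * N ≤ (#B / N) * ∑ v, f v ^ 2 := by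
    have : m ^ 2 * N = (∑ v, f v) ^ 2 / N := by rw [← hmN]; field_simp
    rw [this, div_mul_eq_mul_div]
    exact div_le_div_of_nonneg_right h4 hV.le
  have hS : 0 ≤ ∑ v, f v ^ 2 := Finset.sum_nonneg fun v _ => sq_nonneg _
  have h6 : |Q nb f f| ≤ |Q nb g g| + m ^ 2 * d * N := by
    rw [h1]
    refine (abs_add_le _ _).trans (add_le_add le_rfl (le_of_eq (abs_of_nonneg ?_)))
    positivity
  have h7 : |Q nb f f| ≤ d * (lam * ∑ v, f v ^ 2 + (1 - lam) * (m ^ 2 * N)) := by
    nlinarith [h6, h3]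
  have h8 : lam * ∑ v, f v ^ 2 + (1 - lam) * (m ^ 2 * N) ≤ rho * ∑ v, f v ^ 2 := by
    have e1 := mul_le_mul_of_nonneg_left h5 (by linarith [h.le_one] : 0 ≤ 1 - lam)
    have e2 := mul_le_mul_of_nonneg_right hr hS
    nlinarith
  calc |Q nb f f| ≤ d * (lam * ∑ v, f v ^ 2 + (1 - lam) * (m ^ 2 * N)) := h7
    _ ≤ d * (rho * ∑ v, f v ^ 2) := mul_le_mul_of_nonneg_left h8 hd
    _ = rho * d * ∑ v, f v ^ 2 := by ring

/-- Polarisation. -/
theorem Gap.bil [Nonempty V] (h : Gap nb lam) (B : Finset V) (f g : V → ℝ)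
    (hf : ∀ v, v ∉ B → f v = 0) (hg : ∀ v, v ∉ B → g v = 0) {rho : ℝ}
    (hr : lam + (1 - lam) * (#B / Fintype.card V) ≤ rho) :
    2 * Q nb f g ≤ rho * d * (∑ v, f v ^ 2 + ∑ v, g v ^ 2) := by
  have h1 := h.supp B (f + g) (fun v hv => by simp [hf v hv, hg v hv]) hr
  have h2 := h.supp B (f + (-1 : ℝ) • g) (fun v hv => by simp [hf v hv, hg v hv]) hr
  have e1 : Q nb (f + g) (f + g) = Q nb f f + 2 * Q nb f g + Q nb g g := by
    rw [Q_add_left, Q_add_right, Q_add_right, h.sym g f]; ring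
  have e2 : Q nb (f + (-1 : ℝ) • g) (f + (-1 : ℝ) • g) = Q nb f f - 2 * Q nb f g + Q nb g g := by
    rw [Q_add_left, Q_add_right, Q_add_right, Q_smul_left, Q_smul_left, Q_smul_right,
      Q_smul_right, h.sym g f]
    ring
  have e3 : ∑ v, (f + g) v ^ 2 + ∑ v, (f + (-1 : ℝ) • g) v ^ 2 =
      2 * (∑ v, f v ^ 2 + ∑ v, g v ^ 2) := by
    rw [← Finset.sum_add_distrib, ← Finset.sum_add_distrib, Finset.mul_sum]
    refine Finset.sum_congr rfl fun v _ => ?_
    simp only [Pi.add_apply, Pi.smul_apply, smul_eq_mul]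
    ring
  have h3 := (le_abs_self _).trans h1
  have h4 := (neg_le_abs _).trans h2
  rw [e1] at h3
  rw [e2] at h4
  have h5 : 4 * Q nb f g ≤ rho * d * (∑ v, (f + g) v ^ 2 + ∑ v, (f + (-1 : ℝ) • g) v ^ 2) := by
    rw [mul_add]; linarith
  rw [e3] at h5
  linarith

/-- The number of walks with `t` steps from `v` that stay in `B`. -/
def cnt (nb : Fin d → Equiv.Perm V) (B : Finset V) : ℕ → V → ℝ
  | 0 => fun v => if v ∈ B then 1 else 0
  | t + 1 => fun v => if v ∈ B then ∑ c, cnt nb B t (nb c v) else 0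

theorem cnt_supp (B : Finset V) (t : ℕ) (v : V) (hv : v ∉ B) : cnt nb B t v = 0 := by
  cases t <;> simp [cnt, hv]

theorem cnt_nonneg (B : Finset V) (t : ℕ) (v : V) : 0 ≤ cnt nb B t v := by
  induction t generalizing v with
  | zero => simp only [cnt]; split_ifs <;> norm_num
  | succ t ih =>
    simp only [cnt]
    split_ifs
    · exact Finset.sum_nonneg fun c _ => ih _
    · exact le_rfl

theorem Gap.cnt_sq [Nonempty V] (h : Gap nb lam) (B : Finset V) {rho : ℝ}
    (hr : lam + (1 - lam) * (#B / Fintype.card V) ≤ rho) (h0 : 0 < rho) (hd : 0 < d) (t : ℕ) :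
    ∑ v, cnt nb B t v ^ 2 ≤ ((rho * d) ^ t) ^ 2 * #B := by
  have hR : 0 < rho * d := mul_pos h0 (by exact_mod_cast hd)
  induction t with
  | zero =>
    simp only [cnt, pow_zero, one_pow, one_mul]
    rw [← Finset.sum_filter_add_sum_filter_not univ (fun v => v ∈ B)]
    simp only [ite_pow, one_pow]
    rw [Finset.sum_congr rfl (g := fun _ => (1 : ℝ))
      (fun v hv => if_pos (Finset.mem_filter.1 hv).2)]
    rw [Finset.sum_congr rfl (s₁ := univ.filter fun v => v ∉ B) (g := fun _ => (0 : ℝ))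
      (fun v hv => by rw [if_neg (Finset.mem_filter.1 hv).2]; norm_num)]
    simp
  | succ t ih =>
    have e1 : Q nb (cnt nb B (t + 1)) (cnt nb B t) = ∑ v, cnt nb B (t + 1) v ^ 2 := by
      unfold Q
      refine Finset.sum_congr rfl fun v _ => ?_
      by_cases hv : v ∈ B
      · simp only [cnt, if_pos hv]; ring
      · rw [cnt_supp B (t + 1) v hv]; simp
    have h1 := h.bil B (cnt nb B (t + 1)) ((rho * d) • cnt nb B t) (cnt_supp B (t + 1))
      (fun v hv => by simp [cnt_supp B t v hv]) hr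
    rw [Q_smul_right, e1] at h1
    have e2 : ∑ v, ((rho * d) • cnt nb B t) v ^ 2 = (rho * d) ^ 2 * ∑ v, cnt nb B t v ^ 2 := by
      rw [Finset.mul_sum]
      refine Finset.sum_congr rfl fun v _ => ?_
      simp only [Pi.smul_apply, smul_eq_mul]; ring
    rw [e2] at h1
    have h2 : ∑ v, cnt nb B (t + 1) v ^ 2 ≤ (rho * d) ^ 2 * ∑ v, cnt nb B t v ^ 2 := by
      have : rho * d * (2 * ∑ v, cnt nb B (t + 1) v ^ 2) ≤
          rho * d * (∑ v, cnt nb B (t + 1) v ^ 2 + (rho * d) ^ 2 * ∑ v, cnt nb B t v ^ 2) := by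
        linarith
      have := le_of_mul_le_mul_left this hR
      linarith
    calc _ ≤ _ := h2
      _ ≤ (rho * d) ^ 2 * (((rho * d) ^ t) ^ 2 * #B) :=
        mul_le_mul_of_nonneg_left ih (sq_nonneg _)
      _ = _ := by ring

/-- **Walks that stay in a small set.** -/
theorem Gap.cnt_le [Nonempty V] (h : Gap nb lam) (B : Finset V) {rho : ℝ}
    (hr : lam + (1 - lam) * (#B / Fintype.card V) ≤ rho) (h0 : 0 < rho) (hd : 0 < d) (t : ℕ) :
    ∑ v, cnt nb B t v ≤ (rho * d) ^ t * #B := by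
  have hR : 0 < rho * d := mul_pos h0 (by exact_mod_cast hd)
  have h1 := h.cnt_sq B hr h0 hd t
  have e1 : ∑ v, cnt nb B t v = ∑ v ∈ B, cnt nb B t v := by
    symm
    exact Finset.sum_subset (Finset.subset_univ B) fun v _ hv => cnt_supp B t v hv
  have e2 : ∑ v ∈ B, cnt nb B t v ^ 2 ≤ ∑ v, cnt nb B t v ^ 2 :=
    Finset.sum_le_sum_of_subset_of_nonneg (Finset.subset_univ B) fun v _ _ => sq_nonneg _
  have h2 : (∑ v ∈ B, cnt nb B t v) ^ 2 ≤ #B * ∑ v ∈ B, cnt nb B t v ^ 2 := by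
    have := Finset.sum_mul_sq_le_sq_mul_sq B (fun _ => (1 : ℝ)) (cnt nb B t)
    simpa using this
  rw [e1]
  refine le_of_sq_le_sq ?_ (by positivity)
  calc _ ≤ _ := h2
    _ ≤ #B * (((rho * d) ^ t) ^ 2 * #B) :=
      mul_le_mul_of_nonneg_left (e2.trans h1) (Nat.cast_nonneg _)
    _ = _ := by ring

end Abs

end Vale.Agent.P313.AC.H904
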