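import Mathlib
import Vale.Agent.P313.AC.Spec
import Vale.Agent.P313.AC.H904.Walk

/-!
The walk of the module C3 in the letters of `ZMod P × ZMod P`.
-/

open Finset

namespace Vale.Agent.P313.AC.H904

open Vale.Agent.Lib.PCP.MGG

section Code

variable {P : ℕ} [NeZero P]

/-- The neighbour maps. -/
def nb (P : ℕ) : Fin 8 → Equiv.Perm (ZMod P × ZMod P) :=
  ![shear1 0, shear1 1, shear2 0, shear2 1, (shear1 0).symm, (shear1 1).symm, (shear2 0).symm,
    (shear2 1).symm]

/-- The code of a pair. -/
def code (z : ZMod P × ZMod P) : ℕ := z.1.val + P * z.2.val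

theorem code_mod (z : ZMod P × ZMod P) : code z % P = z.1.val := by
  unfold code
  rw [Nat.add_mul_mod_self_left, Nat.mod_eq_of_lt (ZMod.val_lt z.1)]

theorem code_div (z : ZMod P × ZMod P) : code z / P = z.2.val := by
  unfold code
  rw [Nat.add_mul_div_left _ _ (Nat.pos_of_ne_zero (NeZero.ne P)),
    Nat.div_eq_of_lt (ZMod.val_lt z.1), zero_add]

theorem code_lt (z : ZMod P × ZMod P) : code z < P ^ 2 := by
  unfold code
  have h1 := ZMod.val_lt z.1
  have h2 := ZMod.val_lt z.2
  nlinarith

theorem code_inj : Function.Injective (code (P := P)) := by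
  intro z w h
  refine Prod.ext (ZMod.val_injective P ?_) (ZMod.val_injective P ?_)
  · rw [← code_mod z, h, code_mod]
  · rw [← code_div z, h, code_div]

/-- The pair with a given code. -/
def dec (P : ℕ) (v : ℕ) : ZMod P × ZMod P := ((v : ZMod P), ((v / P : ℕ) : ZMod P))

theorem code_dec {v : ℕ} (hv : v < P ^ 2) : code (dec P v) = v := by
  have hP : 0 < P := Nat.pos_of_ne_zero (NeZero.ne P)
  unfold code dec
  rw [ZMod.val_natCast, ZMod.val_natCast, Nat.mod_eq_of_lt (a := v / P)]
  · exact Nat.mod_add_div v P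
  · rw [Nat.div_lt_iff_lt_mul hP]; nlinarith

theorem image_code : (univ : Finset (ZMod P × ZMod P)).image code = range (P ^ 2) := by
  ext v
  simp only [Finset.mem_image, Finset.mem_univ, true_and, Finset.mem_range]
  constructor
  · rintro ⟨z, rfl⟩; exact code_lt z
  · intro hv; exact ⟨dec P v, code_dec hv⟩

open Classical in
theorem card_code (p : ℕ → Prop) :
    #{v ∈ range (P ^ 2) | p v} = #{z : ZMod P × ZMod P | p (code z)} := by
  rw [← image_code (P := P), Finset.filter_image, Finset.card_image_of_injective _ code_inj]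

theorem sum_code {M : Type*} [AddCommMonoid M] (F : ℕ → M) :
    ∑ v ∈ range (P ^ 2), F v = ∑ z : ZMod P × ZMod P, F (code z) := by
  rw [← image_code (P := P), Finset.sum_image fun a _ b _ h => code_inj h]

theorem code_eq (z : ZMod P × ZMod P) (a b : ℕ) (h1 : z.1 = (a : ZMod P))
    (h2 : z.2 = (b : ZMod P)) : code z = a % P + P * (b % P) := by
  unfold code
  rw [h1, h2, ZMod.val_natCast, ZMod.val_natCast]

theorem cast_sub_val (y : ZMod P) : ((P - y.val : ℕ) : ZMod P) = -y := by
  rw [Nat.cast_sub (ZMod.val_lt y).le, ZMod.natCast_self, ZMod.natCast_zmod_val, zero_sub]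

theorem cast_pred : ((P - 1 : ℕ) : ZMod P) = -1 := by
  have hP : 1 ≤ P := Nat.pos_of_ne_zero (NeZero.ne P)
  rw [Nat.cast_sub hP, ZMod.natCast_self, Nat.cast_one, zero_sub]

theorem mst_code (z : ZMod P × ZMod P) (c : Fin 8) : mst P (code z) c = code (nb P c z) := by
  have e1 := Nat.mod_eq_of_lt (ZMod.val_lt z.1)
  have e2 := Nat.mod_eq_of_lt (ZMod.val_lt z.2)
  unfold mst
  rw [code_mod, code_div]
  match c with
  | 0 =>
    show (z.1.val + 2 * z.2.val) % P + P * z.2.val = _
    rw [code_eq _ (z.1.val + 2 * z.2.val) z.2.val (by simp [nb, shear1]) (by simp [nb, shear1]),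
      e2]
  | 1 =>
    show (z.1.val + 2 * z.2.val + 1) % P + P * z.2.val = _
    rw [code_eq _ (z.1.val + 2 * z.2.val + 1) z.2.val (by simp [nb, shear1])
      (by simp [nb, shear1]), e2]
  | 2 =>
    show z.1.val + P * ((z.2.val + 2 * z.1.val) % P) = _
    rw [code_eq _ z.1.val (z.2.val + 2 * z.1.val) (by simp [nb, shear2]) (by simp [nb, shear2]),
      e1]
  | 3 =>
    show z.1.val + P * ((z.2.val + 2 * z.1.val + 1) % P) = _
    rw [code_eq _ z.1.val (z.2.val + 2 * z.1.val + 1) (by simp [nb, shear2])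
      (by simp [nb, shear2]), e1]
  | 4 =>
    show (z.1.val + 2 * (P - z.2.val)) % P + P * z.2.val = _
    rw [code_eq _ (z.1.val + 2 * (P - z.2.val)) z.2.val
      (by rw [Nat.cast_add, Nat.cast_mul, cast_sub_val]; simp [nb, shear1]; ring)
      (by simp [nb, shear1]), e2]
  | 5 =>
    show (z.1.val + (P - 1) + 2 * (P - z.2.val)) % P + P * z.2.val = _
    rw [code_eq _ (z.1.val + (P - 1) + 2 * (P - z.2.val)) z.2.val
      (by rw [Nat.cast_add, Nat.cast_add, Nat.cast_mul, cast_sub_val, cast_pred]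
          simp [nb, shear1]; ring)
      (by simp [nb, shear1]), e2]
  | 6 =>
    show z.1.val + P * ((z.2.val + 2 * (P - z.1.val)) % P) = _
    rw [code_eq _ z.1.val (z.2.val + 2 * (P - z.1.val)) (by simp [nb, shear2])
      (by rw [Nat.cast_add, Nat.cast_mul, cast_sub_val]; simp [nb, shear2]; ring), e1]
  | 7 =>
    show z.1.val + P * ((z.2.val + (P - 1) + 2 * (P - z.1.val)) % P) = _
    rw [code_eq _ z.1.val (z.2.val + (P - 1) + 2 * (P - z.1.val)) (by simp [nb, shear2])
      (by rw [Nat.cast_add, Nat.cast_add, Nat.cast_mul, cast_sub_val, cast_pred]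
          simp [nb, shear2]; ring), e1]

/-- The inverse of a neighbour map is a neighbour map. -/
theorem Q_nb (f g : ZMod P × ZMod P → ℝ) : Q (nb P) f g =
    (∑ z, f z * (g (shear1 0 z) + g (shear1 1 z) + g (shear2 0 z) + g (shear2 1 z))) +
    ∑ z, g z * (f (shear1 0 z) + f (shear1 1 z) + f (shear2 0 z) + f (shear2 1 z)) := by
  have h : ∀ e : Equiv.Perm (ZMod P × ZMod P), ∑ z, f z * g (e.symm z) = ∑ z, g z * f (e z) := by
    intro e
    rw [← Equiv.sum_comp e]
    refine Finset.sum_congr rfl fun z _ => ?_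
    rw [Equiv.symm_apply_apply, mul_comm]
  unfold Q
  have e1 : ∀ z, f z * ∑ c, g (nb P c z) =
      f z * (g (shear1 0 z) + g (shear1 1 z) + g (shear2 0 z) + g (shear2 1 z)) +
      (f z * g ((shear1 0).symm z) + f z * g ((shear1 1).symm z) + f z * g ((shear2 0).symm z) +
        f z * g ((shear2 1).symm z)) := by
    intro z
    rw [Fin.sum_univ_eight]
    simp only [nb, Matrix.cons_val]
    ring
  rw [Finset.sum_congr rfl fun z _ => e1 z, Finset.sum_add_distrib]
  congr 1
  rw [Finset.sum_add_distrib, Finset.sum_add_distrib, Finset.sum_add_distrib, h, h, h, h,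
    ← Finset.sum_add_distrib, ← Finset.sum_add_distrib, ← Finset.sum_add_distrib]
  refine Finset.sum_congr rfl fun z _ => ?_
  ring

theorem gap_nb : Gap (nb P) (73 / 80) where
  nonneg := by norm_num
  le_one := by norm_num
  sym f g := by rw [Q_nb, Q_nb, add_comm]
  gap f hf := by
    rw [Q_nb, ← two_mul, abs_mul, abs_of_pos (by norm_num : (0 : ℝ) < 2)]
    have := mgg f hf
    push_cast
    linarith

/-! ### Counting walks -/

theorem mwk_zero_lt (z j : ℕ) : mwk P z j < P ^ 2 := by
  have hP : 0 < P := Nat.pos_of_ne_zero (NeZero.ne P)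
  induction j with
  | zero => exact Nat.mod_lt _ (by positivity)
  | succ j ih =>
    show mst P (mwk P z j) (z / P ^ 2 / 8 ^ j % 8) < P ^ 2
    have h := mst_code (dec P (mwk P z j)) ⟨z / P ^ 2 / 8 ^ j % 8, Nat.mod_lt _ (by norm_num)⟩
    rw [code_dec ih] at h
    rw [h]
    exact code_lt _

/-- The first step. -/
theorem mwk_first (v : ZMod P × ZMod P) (c : Fin 8) (T j : ℕ) :
    mwk P (code v + P ^ 2 * (c + 8 * T)) (j + 1) = mwk P (code (nb P c v) + P ^ 2 * T) j := by
  have hP : 0 < P ^ 2 := by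
    have : 0 < P := Nat.pos_of_ne_zero (NeZero.ne P)
    positivity
  have d1 : ∀ (w : ZMod P × ZMod P) (x : ℕ), (code w + P ^ 2 * x) / P ^ 2 = x := by
    intro w x
    rw [Nat.add_mul_div_left _ _ hP, Nat.div_eq_of_lt (code_lt w), zero_add]
  have m1 : ∀ (w : ZMod P × ZMod P) (x : ℕ), (code w + P ^ 2 * x) % P ^ 2 = code w := by
    intro w x
    rw [Nat.add_mul_mod_self_left, Nat.mod_eq_of_lt (code_lt w)]
  induction j with
  | zero =>
    show mst P ((code v + P ^ 2 * (c + 8 * T)) % P ^ 2)
      ((code v + P ^ 2 * (c + 8 * T)) / P ^ 2 / 8 ^ 0 % 8) = (code (nb P c v) + P ^ 2 * T) % P ^ 2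
    rw [m1, m1, d1, pow_zero, Nat.div_one, Nat.add_mul_mod_self_left,
      Nat.mod_eq_of_lt c.isLt, mst_code]
  | succ j ih =>
    show mst P (mwk P (code v + P ^ 2 * (c + 8 * T)) (j + 1))
      ((code v + P ^ 2 * (c + 8 * T)) / P ^ 2 / 8 ^ (j + 1) % 8) =
      mst P (mwk P (code (nb P c v) + P ^ 2 * T) j)
      ((code (nb P c v) + P ^ 2 * T) / P ^ 2 / 8 ^ j % 8)
    rw [ih, d1, d1]
    congr 2
    rw [pow_succ', ← Nat.div_div_eq_div_mul, Nat.add_mul_div_left _ _ (by norm_num : 0 < 8),
      Nat.div_eq_of_lt c.isLt, zero_add]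

open Classical in
/-- Walks of length `t` from `v` inside `Bd`. -/
theorem cnt_eq (Bd : ℕ → Prop) (t : ℕ) (v : ZMod P × ZMod P) :
    cnt (nb P) {z : ZMod P × ZMod P | Bd (code z)} t v =
      #{T ∈ range (8 ^ t) | ∀ j < t + 1, Bd (mwk P (code v + P ^ 2 * T) j)} := by
  have h0 : ∀ (w : ZMod P × ZMod P) (x : ℕ), mwk P (code w + P ^ 2 * x) 0 = code w := by
    intro w x
    show (code w + P ^ 2 * x) % P ^ 2 = code w
    rw [Nat.add_mul_mod_self_left, Nat.mod_eq_of_lt (code_lt w)]
  induction t generalizing v with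
  | zero =>
    simp only [cnt, pow_zero, zero_add, Finset.mem_filter, Finset.mem_univ, true_and]
    by_cases h : Bd (code v)
    · rw [if_pos h, Finset.filter_true_of_mem]
      · simp
      · intro T _ j hj
        rw [Nat.lt_one_iff.1 hj, h0]; exact h
    · rw [if_neg h, Finset.filter_false_of_mem]
      · simp
      · intro T _ hT
        exact h (by have := hT 0 (by norm_num); rwa [h0] at this)
  | succ t ih =>
    simp only [cnt, Finset.mem_filter, Finset.mem_univ, true_and]
    by_cases h : Bd (code v)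
    · rw [if_pos h]
      have e1 : #{T ∈ range (8 ^ (t + 1)) | ∀ j < t + 1 + 1, Bd (mwk P (code v + P ^ 2 * T) j)} =
          ∑ c : Fin 8, #{T ∈ range (8 ^ t) |
            ∀ j < t + 1, Bd (mwk P (code (nb P c v) + P ^ 2 * T) j)} := by
        have e2 : {T ∈ range (8 ^ (t + 1)) | ∀ j < t + 1 + 1,
            Bd (mwk P (code v + P ^ 2 * T) j)} =
            univ.biUnion fun c : Fin 8 => ({T ∈ range (8 ^ t) |
            ∀ j < t + 1, Bd (mwk P (code (nb P c v) + P ^ 2 * T) j)}).image
              fun T => (c : ℕ) + 8 * T := by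
          ext T
          simp only [Finset.mem_filter, Finset.mem_range, Finset.mem_biUnion, Finset.mem_univ,
            true_and, Finset.mem_image]
          constructor
          · rintro ⟨hT, hw⟩
            refine ⟨⟨T % 8, Nat.mod_lt _ (by norm_num)⟩, T / 8, ⟨?_, ?_⟩, ?_⟩
            · rw [Nat.div_lt_iff_lt_mul (by norm_num)]; rwa [pow_succ] at hT
            · intro j hj
              rw [← mwk_first]
              have := hw (j + 1) (by omega)
              rwa [show T = T % 8 + 8 * (T / 8) from (Nat.mod_add_div T 8).symm] at this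
            · exact Nat.mod_add_div T 8
          · rintro ⟨c, T', ⟨hT', hw⟩, rfl⟩
            refine ⟨?_, ?_⟩
            · rw [pow_succ]; have := c.isLt; omega
            · intro j hj
              cases j with
              | zero => rw [h0]; exact h
              | succ j => rw [mwk_first]; exact hw j (by omega)
        rw [e2, Finset.card_biUnion]
        · refine Finset.sum_congr rfl fun c _ => ?_
          rw [Finset.card_image_of_injective]
          intro a b hab
          simp only at hab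
          omega
        · intro c _ c' _ hcc
          rw [Function.onFun, Finset.disjoint_left]
          intro T hT hT'
          obtain ⟨a, _, ha⟩ := Finset.mem_image.1 hT
          obtain ⟨b, _, hb⟩ := Finset.mem_image.1 hT'
          apply hcc
          apply Fin.ext
          have := c.isLt
          have := c'.isLt
          omega
      rw [e1, Nat.cast_sum]
      exact Finset.sum_congr rfl fun c _ => ih _
    · rw [if_neg h, Finset.filter_false_of_mem]
      · simp
      · intro T _ hT
        exact h (by have := hT 0 (by omega); rwa [h0] at this)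

open Classical in
/-- Numbers below `P ^ 2 * M` as pairs. -/
theorem card_pair (M : ℕ) (p : ℕ → Prop) :
    #{r ∈ range (P ^ 2 * M) | p r} =
      ∑ v : ZMod P × ZMod P, #{T ∈ range M | p (code v + P ^ 2 * T)} := by
  have hP : 0 < P ^ 2 := by
    have : 0 < P := Nat.pos_of_ne_zero (NeZero.ne P)
    positivity
  have e2 : {r ∈ range (P ^ 2 * M) | p r} =
      univ.biUnion fun v : ZMod P × ZMod P =>
        ({T ∈ range M | p (code v + P ^ 2 * T)}).image fun T => code v + P ^ 2 * T := by
    ext r
    simp only [Finset.mem_filter, Finset.mem_range, Finset.mem_biUnion, Finset.mem_univ,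
      true_and, Finset.mem_image]
    constructor
    · rintro ⟨hr, hp⟩
      have h1 : code (dec P (r % P ^ 2)) = r % P ^ 2 := code_dec (Nat.mod_lt _ hP)
      refine ⟨dec P (r % P ^ 2), r / P ^ 2, ⟨?_, ?_⟩, ?_⟩
      · rw [Nat.div_lt_iff_lt_mul hP, mul_comm]; exact hr
      · rw [h1, Nat.mod_add_div]; exact hp
      · rw [h1, Nat.mod_add_div]
    · rintro ⟨v, T, ⟨hT, hp⟩, rfl⟩
      refine ⟨?_, hp⟩
      have := code_lt v
      calc code v + P ^ 2 * T < P ^ 2 + P ^ 2 * T := by omega
        _ = P ^ 2 * (T + 1) := by ring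
        _ ≤ P ^ 2 * M := Nat.mul_le_mul_left _ hT
  rw [e2, Finset.card_biUnion]
  · refine Finset.sum_congr rfl fun v _ => ?_
    rw [Finset.card_image_of_injective]
    intro a b hab
    exact Nat.eq_of_mul_eq_mul_left hP (Nat.add_left_cancel hab)
  · intro v _ v' _ hvv
    rw [Function.onFun, Finset.disjoint_left]
    intro T hT hT'
    obtain ⟨a, _, ha⟩ := Finset.mem_image.1 hT
    obtain ⟨b, _, hb⟩ := Finset.mem_image.1 hT'
    apply hvv
    apply code_inj
    have e : ∀ (w : ZMod P × ZMod P) (x : ℕ), (code w + P ^ 2 * x) % P ^ 2 = code w := by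
      intro w x
      rw [Nat.add_mul_mod_self_left, Nat.mod_eq_of_lt (code_lt w)]
    rw [← e v a, ha, ← hb, e]

open Classical in
/-- **Bad walks are rare.** -/
theorem bad_walks (Bd : ℕ → Prop) (τ : ℕ) (h : 1000 * #{v ∈ range (P ^ 2) | Bd v} ≤ P ^ 2) :
    (#{r ∈ range (P ^ 2 * 8 ^ τ) | ∀ j < τ + 1, Bd (mwk P r j)} : ℝ) ≤
      (23 / 25) ^ τ * 8 ^ τ * (P ^ 2 / 1000) := by
  have e0 : #{r ∈ range (P ^ 2 * 8 ^ τ) | ∀ j < τ + 1, Bd (mwk P r j)} =
      ∑ v : ZMod P × ZMod P,
        #{T ∈ range (8 ^ τ) | ∀ j < τ + 1, Bd (mwk P (code v + P ^ 2 * T) j)} := by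
    have := card_pair (P := P) (8 ^ τ) fun r => ∀ j < τ + 1, Bd (mwk P r j)
    convert this
  rw [e0]
  push_cast
  rw [Finset.sum_congr rfl fun v _ => (cnt_eq Bd τ v).symm]
  rw [card_code] at h
  have h1 : (1000 : ℝ) * #{z : ZMod P × ZMod P | Bd (code z)} ≤ P ^ 2 := by exact_mod_cast h
  have hP : (0 : ℝ) < P := by exact_mod_cast Nat.pos_of_ne_zero (NeZero.ne P)
  have hV : (Fintype.card (ZMod P × ZMod P) : ℝ) = P ^ 2 := by
    rw [Fintype.card_prod, ZMod.card]; push_cast; ring
  have h2 := (gap_nb (P := P)).cnt_le {z : ZMod P × ZMod P | Bd (code z)} (rho := 23 / 25) (by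
    rw [hV]
    have : (#{z : ZMod P × ZMod P | Bd (code z)} : ℝ) / P ^ 2 ≤ 1 / 1000 := by
      rw [div_le_div_iff₀ (by positivity) (by norm_num)]
      linarith
    linarith) (by norm_num) (by norm_num) τ
  refine h2.trans ?_
  rw [mul_pow]
  push_cast
  refine mul_le_mul_of_nonneg_left ?_ (by positivity)
  linarith

end Code

end Vale.Agent.P313.AC.H904
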