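import Mathlib
import Vale.Agent.P313.AC.Spec
import Vale.Agent.P313.AC.H904.Code

/-!
Module C3: amplification (walks on an expander, and forty shifts).
-/

open Finset

namespace Vale.Agent.P313.AC.H904

section Shift

open Classical in
/-- Shifts are bijections. -/
theorem card_shift (R u : ℕ) (p : ℕ → Prop) :
    #{r ∈ range R | p ((r + u) % R)} = #{r ∈ range R | p r} := by
  rcases Nat.eq_zero_or_pos R with rfl | hR
  · simp
  have hinj : Set.InjOn (fun r => (r + u) % R) (range R : Finset ℕ) := by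
    intro a ha b hb hab
    have h1 := Nat.ModEq.add_right_cancel' u (show a + u ≡ b + u [MOD R] from hab)
    have ha' := Finset.mem_range.1 (Finset.mem_coe.1 ha)
    have hb' := Finset.mem_range.1 (Finset.mem_coe.1 hb)
    rwa [Nat.ModEq, Nat.mod_eq_of_lt ha', Nat.mod_eq_of_lt hb'] at h1
  have himg : (range R).image (fun r => (r + u) % R) = range R := by
    refine Finset.eq_of_subset_of_card_le ?_ ?_
    · intro x hx
      obtain ⟨r, _, rfl⟩ := Finset.mem_image.1 hx
      exact Finset.mem_range.2 (Nat.mod_lt _ hR)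
    · rw [Finset.card_image_of_injOn hinj]
  conv_rhs => rw [← himg, Finset.filter_image]
  rw [Finset.card_image_of_injOn]
  exact hinj.mono (by
    intro x hx
    exact Finset.mem_coe.2 (Finset.mem_of_mem_filter x (Finset.mem_coe.1 hx)))

open Classical in
/-- One shift reduces a set `S` at least as much as on average. -/
theorem exists_shift (R : ℕ) (hR : 0 < R) (Bd : ℕ → Prop) (S : Finset ℕ) (hS : S ⊆ range R) :
    ∃ u < R, #{r ∈ S | Bd ((r + u) % R)} * R ≤ #S * #{r ∈ range R | Bd r} := by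
  by_contra hcon
  push Not at hcon
  have h1 : ∑ u ∈ range R, #{r ∈ S | Bd ((r + u) % R)} = #S * #{r ∈ range R | Bd r} := by
    simp only [Finset.card_filter]
    rw [Finset.sum_comm]
    rw [Finset.sum_congr rfl (g := fun _ => #{r ∈ range R | Bd r})]
    · rw [Finset.sum_const, smul_eq_mul, Finset.card_filter]
    · intro r _
      rw [← card_shift R r Bd, Finset.card_filter]
      exact Finset.sum_congr rfl fun u _ => by rw [add_comm r u]
  have h2 : ∑ u ∈ range R, #S * #{r ∈ range R | Bd r} <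
      ∑ u ∈ range R, #{r ∈ S | Bd ((r + u) % R)} * R :=
    Finset.sum_lt_sum_of_nonempty ⟨0, Finset.mem_range.2 hR⟩ fun u hu =>
      hcon u (Finset.mem_range.1 hu)
  rw [Finset.sum_const, Finset.card_range, smul_eq_mul, ← Finset.sum_mul, h1, mul_comm] at h2
  exact lt_irrefl _ h2

open Classical in
/-- `m` shifts. -/
theorem exists_shifts (R : ℕ) (hR : 0 < R) (Bd : ℕ → Prop) (m : ℕ) :
    ∃ u : ℕ → ℕ, (∀ i, u i < R) ∧
      #{r ∈ range R | ∀ i < m, Bd ((r + u i) % R)} * R ^ m ≤ R * #{r ∈ range R | Bd r} ^ m := by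
  induction m with
  | zero => exact ⟨fun _ => 0, fun _ => hR, by simp⟩
  | succ m ih =>
    obtain ⟨u, hu, h⟩ := ih
    obtain ⟨w, hw, h'⟩ := exists_shift R hR Bd _ (Finset.filter_subset
      (fun r => ∀ i < m, Bd ((r + u i) % R)) (range R))
    refine ⟨fun i => if i < m then u i else w, fun i => by
      beta_reduce; split_ifs
      · exact hu i
      · exact hw, ?_⟩
    have e1 : {r ∈ range R | ∀ i < m + 1, Bd ((r + if i < m then u i else w) % R)} =
        {r ∈ {r ∈ range R | ∀ i < m, Bd ((r + u i) % R)} | Bd ((r + w) % R)} := by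
      rw [Finset.filter_filter]
      refine Finset.filter_congr fun r _ => ?_
      constructor
      · intro H
        refine ⟨fun i hi => ?_, ?_⟩
        · have := H i (by omega)
          rwa [if_pos hi] at this
        · have := H m (by omega)
          rwa [if_neg (lt_irrefl m)] at this
      · rintro ⟨H1, H2⟩ i hi
        by_cases him : i < m
        · rw [if_pos him]; exact H1 i him
        · rw [if_neg him]; exact H2
    rw [e1, pow_succ, pow_succ]
    calc _ = #{r ∈ {r ∈ range R | ∀ i < m, Bd ((r + u i) % R)} | Bd ((r + w) % R)} * R * R ^ m := by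
          ring
      _ ≤ #{r ∈ range R | ∀ i < m, Bd ((r + u i) % R)} * #{r ∈ range R | Bd r} * R ^ m :=
          Nat.mul_le_mul_right _ h'
      _ = #{r ∈ range R | ∀ i < m, Bd ((r + u i) % R)} * R ^ m * #{r ∈ range R | Bd r} := by ring
      _ ≤ R * #{r ∈ range R | Bd r} ^ m * #{r ∈ range R | Bd r} := Nat.mul_le_mul_right _ h
      _ = _ := by ring

/-- Shifts as the digits of one number. -/
theorem digits (R m : ℕ) (hR : 0 < R) (u : ℕ → ℕ) (hu : ∀ i, u i < R) :
    ∃ x < R ^ m, ∀ i < m, x / R ^ i % R = u i := by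
  induction m with
  | zero => exact ⟨0, by simp, by simp⟩
  | succ m ih =>
    obtain ⟨x, hx, h⟩ := ih
    refine ⟨x + R ^ m * u m, ?_, ?_⟩
    · calc x + R ^ m * u m < R ^ m + R ^ m * u m := by omega
        _ = R ^ m * (u m + 1) := by ring
        _ ≤ R ^ m * R := Nat.mul_le_mul_left _ (hu m)
        _ = R ^ (m + 1) := by rw [pow_succ]
    · intro i hi
      rcases Nat.lt_or_ge i m with h1 | h1
      · rw [← h i h1]
        obtain ⟨k, rfl⟩ : ∃ k, m = i + 1 + k := ⟨m - (i + 1), by omega⟩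
        rw [show x + R ^ (i + 1 + k) * u (i + 1 + k) = x + R ^ i * (R * (R ^ k * u (i + 1 + k)))
          by ring, Nat.add_mul_div_left _ _ (pow_pos hR i), Nat.add_mul_mod_self_left]
      · obtain rfl : i = m := by omega
        rw [Nat.add_mul_div_left _ _ (pow_pos hR i), Nat.div_eq_of_lt hx, zero_add,
          Nat.mod_eq_of_lt (hu i)]

end Shift

section Final

variable {P : ℕ} [NeZero P]

/-- The position after `j` steps, as a permutation of the starting points. -/
theorem exists_perm (T j : ℕ) : ∃ e : Equiv.Perm (ZMod P × ZMod P),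
    ∀ v, mwk P (code v + P ^ 2 * T) j = code (e v) := by
  have hP : 0 < P ^ 2 := by
    have : 0 < P := Nat.pos_of_ne_zero (NeZero.ne P)
    positivity
  induction j generalizing T with
  | zero =>
    refine ⟨Equiv.refl _, fun v => ?_⟩
    show (code v + P ^ 2 * T) % P ^ 2 = code v
    rw [Nat.add_mul_mod_self_left, Nat.mod_eq_of_lt (code_lt v)]
  | succ j ih =>
    obtain ⟨e, he⟩ := ih (T / 8)
    refine ⟨(nb P ⟨T % 8, Nat.mod_lt _ (by norm_num)⟩).trans e, fun v => ?_⟩
    have := mwk_first v ⟨T % 8, Nat.mod_lt _ (by norm_num)⟩ (T / 8) j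
    simp only [Nat.mod_add_div] at this
    rw [this, he]
    rfl

open Classical in
/-- Every position of the walk is uniform. -/
theorem card_pos (τ j : ℕ) (p : ℕ → Prop) :
    #{r ∈ range (P ^ 2 * 8 ^ τ) | p (mwk P r j)} = 8 ^ τ * #{v ∈ range (P ^ 2) | p v} := by
  rw [card_pair (8 ^ τ) fun r => p (mwk P r j), card_code]
  simp only [Finset.card_filter]
  rw [Finset.sum_comm]
  rw [Finset.sum_congr rfl (g := fun _ => ∑ z : ZMod P × ZMod P, if p (code z) then 1 else 0)]
  · rw [Finset.sum_const, Finset.card_range, smul_eq_mul]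
  · intro T _
    obtain ⟨e, he⟩ := exists_perm (P := P) T j
    rw [← Equiv.sum_comp e (fun z : ZMod P × ZMod P => if p (code z) then 1 else 0)]
    exact Finset.sum_congr rfl fun v _ => by rw [he]

end Final

/-- **Module C3.** -/
theorem modC3 : ModC3 := by
  classical
  intro P τ p hP hτ
  have : NeZero P := ⟨hP.ne'⟩
  have hR : 0 < P ^ 2 * 8 ^ τ := by positivity
  refine ⟨fun h => ?_, fun h => ?_⟩
  · -- the covering
    have h1 := bad_walks (P := P) (fun v => ¬ p v) τ (by convert h)
    set R := P ^ 2 * 8 ^ τ with hRd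
    obtain ⟨u, hu, h2⟩ := exists_shifts R hR (fun r => ∀ j < τ + 1, ¬ p (mwk P r j)) 40
    obtain ⟨x, hx, hxu⟩ := digits R 40 hR u hu
    have hP2 : (P : ℝ) ^ 2 ≤ 2 ^ τ := by
      have e1 : P < 2 ^ (Nat.log 2 P + 1) := Nat.lt_pow_succ_log_self (by norm_num) P
      have e2 : P ^ 2 ≤ 2 ^ τ := by
        calc P ^ 2 ≤ (2 ^ (Nat.log 2 P + 1)) ^ 2 := Nat.pow_le_pow_left e1.le 2
          _ = 2 ^ (2 * Nat.log 2 P + 2) := by rw [← pow_mul]; ring_nf
          _ ≤ 2 ^ τ := Nat.pow_le_pow_right (by norm_num) hτ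
      exact_mod_cast e2
    have hP0 : (0 : ℝ) < P := by exact_mod_cast hP
    have h3 : {r ∈ range R | ∀ i < 40, ∀ j < τ + 1, ¬ p (mwk P ((r + u i) % R) j)} = ∅ := by
      by_contra hne
      have hc : 1 ≤ #{r ∈ range R | ∀ i < 40, ∀ j < τ + 1, ¬ p (mwk P ((r + u i) % R) j)} :=
        Finset.card_pos.2 (Finset.nonempty_iff_ne_empty.2 hne)
      have h4 : (R : ℝ) ^ 40 ≤ R * (#{r ∈ range R | ∀ j < τ + 1, ¬ p (mwk P r j)} : ℝ) ^ 40 := by
        have : R ^ 40 ≤ R * #{r ∈ range R | ∀ j < τ + 1, ¬ p (mwk P r j)} ^ 40 := by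
          calc R ^ 40 = 1 * R ^ 40 := (one_mul _).symm
            _ ≤ #{r ∈ range R | ∀ i < 40, ∀ j < τ + 1, ¬ p (mwk P ((r + u i) % R) j)} * R ^ 40 :=
              Nat.mul_le_mul_right _ hc
            _ ≤ _ := by convert h2
        exact_mod_cast this
      have hRr : (R : ℝ) = P ^ 2 * 8 ^ τ := by rw [hRd]; push_cast; ring
      have h5 : (#{r ∈ range R | ∀ j < τ + 1, ¬ p (mwk P r j)} : ℝ) ≤
          (23 / 25) ^ τ / 1000 * R := by
        rw [hRr]
        calc _ ≤ _ := by convert h1
          _ = _ := by ring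
      have hR0 : (0 : ℝ) < R := by exact_mod_cast hR
      have h6 : (R : ℝ) ^ 40 ≤ R * ((23 / 25) ^ τ / 1000 * R) ^ 40 :=
        h4.trans (mul_le_mul_of_nonneg_left (pow_le_pow_left₀ (by positivity) h5 40) hR0.le)
      have h7 : (1 : ℝ) ≤ R * ((23 / 25) ^ τ / 1000) ^ 40 := by
        rw [mul_pow, ← mul_assoc] at h6
        have : (1 : ℝ) * R ^ 40 ≤ R * ((23 / 25) ^ τ / 1000) ^ 40 * R ^ 40 := by linarith
        exact le_of_mul_le_mul_right this (by positivity)
      have h8 : (R : ℝ) * ((23 / 25) ^ τ / 1000) ^ 40 ≤ 1 / 1000 ^ 40 := by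
        have e1 : (R : ℝ) ≤ 16 ^ τ := by
          rw [hRr]
          calc (P : ℝ) ^ 2 * 8 ^ τ ≤ 2 ^ τ * 8 ^ τ := mul_le_mul_of_nonneg_right hP2 (by positivity)
            _ = 16 ^ τ := by rw [← mul_pow]; norm_num
        have e2 : ((16 : ℝ) * (23 / 25) ^ 40) ^ τ ≤ 1 := pow_le_one₀ (by positivity) (by norm_num)
        calc (R : ℝ) * ((23 / 25) ^ τ / 1000) ^ 40
            ≤ 16 ^ τ * ((23 / 25) ^ τ / 1000) ^ 40 :=
              mul_le_mul_of_nonneg_right e1 (by positivity)
          _ = ((16 : ℝ) * (23 / 25) ^ 40) ^ τ * (1 / 1000 ^ 40) := by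
              rw [mul_pow, div_pow, ← pow_mul, ← pow_mul, mul_comm τ 40]; ring
          _ ≤ 1 * (1 / 1000 ^ 40) := mul_le_mul_of_nonneg_right e2 (by positivity)
          _ = _ := one_mul _
      have h9 : (1 : ℝ) / 1000 ^ 40 < 1 := by norm_num
      linarith
    refine ⟨x, hx, fun r hr => ?_⟩
    by_contra hcon
    push Not at hcon
    have : r ∈ ({r ∈ range R | ∀ i < 40, ∀ j < τ + 1, ¬ p (mwk P ((r + u i) % R) j)} :
        Finset ℕ) := by
      refine Finset.mem_filter.2 ⟨Finset.mem_range.2 hr, fun i hi j hj => ?_⟩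
      have := hcon i hi j hj
      rwa [← Nat.add_mod_mod, hxu i hi] at this
    rw [h3] at this
    exact absurd this (Finset.notMem_empty r)
  · -- no covering
    rintro ⟨x, _, hx⟩
    set R := P ^ 2 * 8 ^ τ with hRd
    have h1 : range R ⊆ (range 40).biUnion fun i => (range (τ + 1)).biUnion fun j =>
        {r ∈ range R | p (mwk P ((r + x / R ^ i) % R) j)} := by
      intro r hr
      obtain ⟨i, hi, j, hj, h'⟩ := hx r (Finset.mem_range.1 hr)
      exact Finset.mem_biUnion.2 ⟨i, Finset.mem_range.2 hi, Finset.mem_biUnion.2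
        ⟨j, Finset.mem_range.2 hj, Finset.mem_filter.2 ⟨hr, h'⟩⟩⟩
    have h2 := (Finset.card_le_card h1).trans Finset.card_biUnion_le
    have h3 : ∀ i ∈ range 40, #((range (τ + 1)).biUnion fun j =>
        {r ∈ range R | p (mwk P ((r + x / R ^ i) % R) j)}) ≤
        (τ + 1) * (8 ^ τ * #{v ∈ range (P ^ 2) | p v}) := by
      intro i _
      refine Finset.card_biUnion_le.trans ?_
      rw [Finset.sum_congr rfl (g := fun _ => 8 ^ τ * #{v ∈ range (P ^ 2) | p v})]
      · rw [Finset.sum_const, Finset.card_range, smul_eq_mul]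
      · intro j _
        have e1 := card_shift R (x / R ^ i) fun r => p (mwk P r j)
        have e2 := card_pos (P := P) τ j p
        rw [← hRd] at e2
        exact e1.trans e2
    have h4 := h2.trans (Finset.sum_le_sum h3)
    rw [Finset.card_range, Finset.sum_const, Finset.card_range, smul_eq_mul, hRd] at h4
    have h5 : P ^ 2 * 8 ^ τ ≤ (40 * (τ + 1) * #{v ∈ range (P ^ 2) | p v}) * 8 ^ τ := by
      calc _ ≤ _ := h4
        _ = _ := by ring
    have h6 := Nat.le_of_mul_le_mul_right h5 (by positivity)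
    omega

end Vale.Agent.P313.AC.H904
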