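import Vale.Agent.P313.AC.FDef

/-!
Module F2: level `0`.
-/

namespace Vale.Agent.P313.AC.H904

open Finset

theorem sympr_iff (x : List Bool) (q s : ℕ) : sympr x q s ↔ s = symc x q := by
  unfold sympr symc inSym
  by_cases hq : q = 0
  · simp only [hq, if_true]
    constructor
    · rintro (⟨_, h⟩ | ⟨h, _⟩ | ⟨h, _⟩ | ⟨h, _⟩)
      · exact h
      · omega
      · omega
      · omega
    · intro h
      exact Or.inl ⟨trivial, h⟩
  · rw [if_neg hq]
    rcases h : x[q - 1]? with _ | b
    · have h1 : x.length ≤ q - 1 := by rwa [List.getElem?_eq_none_iff] at h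
      show _ ↔ s = 1
      constructor
      · rintro (⟨h2, _⟩ | ⟨_, _, h2⟩ | ⟨_, h2, _⟩ | ⟨_, h2, _⟩)
        · exact absurd h2 hq
        · exact h2
        · omega
        · omega
      · intro h2
        exact Or.inr (Or.inl ⟨by omega, by omega, h2⟩)
    · have h1 : q - 1 < x.length := by
        by_contra h2
        rw [List.getElem?_eq_none_iff.2 (not_lt.1 h2)] at h
        exact absurd h (by simp)
      cases b
      · show _ ↔ s = 2
        constructor
        · rintro (⟨h2, _⟩ | ⟨_, h2, _⟩ | ⟨_, _, _, h2⟩ | ⟨_, _, h2, _⟩)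
          · exact absurd h2 hq
          · omega
          · exact h2
          · exact absurd h2 (by simp)
        · intro h2
          exact Or.inr (Or.inr (Or.inl ⟨by omega, by omega, by simp, h2⟩))
      · show _ ↔ s = 3
        constructor
        · rintro (⟨h2, _⟩ | ⟨_, h2, _⟩ | ⟨_, _, h2, _⟩ | ⟨_, _, _, h2⟩)
          · exact absurd h2 hq
          · omega
          · exact absurd rfl h2
          · exact h2
        · intro h2
          exact Or.inr (Or.inr (Or.inr ⟨by omega, by omega, rfl, h2⟩))

theorem symc_lt (x : List Bool) (q : ℕ) : symc x q < 4 := by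
  unfold symc
  split <;> omega

/-- MODULE F2. -/
theorem modF2 : ModF2 := by
  intro D x hD l t u y v X hl hu hy hv
  subst hl
  have h4 : 4 ≤ (x.length + 2) ^ D.e := by
    have h1 := (hD.good x.length).hV
    have h2 := hD.goodF.hV x.length
    have h3 : 2 ≤ (D.p x.length).P := (hD.good x.length).hP.two_le
    have h5 : 1 ≤ (D.p x.length).U := by
      unfold Pr.U Pr.C
      rw [(hD.good x.length).hN]
      exact Nat.mul_pos (pow_pos (by norm_num) _) (by omega)
    have h6 : 1 ≤ (D.p x.length).f ^ (2 * D.j0) :=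
      Nat.one_le_pow _ _ (by have := (hD.good x.length).f2; omega)
    have h7 : 1 ≤ (D.p x.length).f ^ (2 * D.j0) * (D.p x.length).U := Nat.mul_pos h6 h5
    omega
  have h0 : aA 0 t u y v 0 = 0 := rfl
  have h1 : aA 0 t u y v 1 = 0 := rfl
  have hop : opF D x X (aA 0 t u y v) ↔ opA0 D x X (aA 0 t u y v) := by
    unfold opF
    rw [h0, h1]
    constructor
    · rintro (H | H | H | H | H | H | H | H)
      · exact H.2.2
      · exact absurd rfl H.2.1
      · exact absurd H.1 (by norm_num)
      · exact absurd H.1 (by norm_num)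
      · exact absurd H.1 (by norm_num)
      · exact absurd H.1 (by norm_num)
      · exact absurd H.1 (by norm_num)
      · exact absurd H.1 (by norm_num)
    · intro H
      exact Or.inl ⟨rfl, rfl, H⟩
  rw [hop]
  show (∃ s < (x.length + 2) ^ D.e, sympr x (D.ps x.length u) s ∧
    v = gA0 D x.length s u y) ↔ v = gA0 D x.length (symc x (D.ps x.length u)) u y
  constructor
  · rintro ⟨s, _, hs, h⟩
    rw [sympr_iff] at hs
    rw [← hs]
    exact h
  · intro h
    exact ⟨_, lt_of_lt_of_le (symc_lt x _) h4, (sympr_iff x _ _).2 rfl, h⟩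

end Vale.Agent.P313.AC.H904
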